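import Vale.Agent.P272.K.AMP.Prod.Final

/-! The connected version. -/

open scoped Manifold ContDiff ComplexOrder Topology
open Complex Set Filter

set_option linter.all false

noncomputable section

namespace Vale.Agent.P272.K

/-- full ampleness in dimension `n`, for connected manifolds -/
def AmpleDimC (n : ℕ) : Prop :=
  ∀ (X : Type) [TopologicalSpace X] [T2Space X] [CompactSpace X] [ConnectedSpace X]
    [ChartedSpace (Cm n) X] [IsManifold 𝓘(ℂ, Cm n) ω X]
    (w h : Chart n X → Cm n → Matrix (Fin n) (Fin n) ℂ) (_ : IsKahler w) (_ : IsHermitian h)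
    (_ : NegHSC h), ∃ φ : Chart n X → Cm n → ℝ, IsCanonicalMetric φ ∧
      ∀ e x, At e x → (cHess (φ e) (e x)).PosDef

/-- it suffices to prove full ampleness in dimensions `≥ 3` (connected manifolds) -/
theorem ample_of_threeC (H : ∀ n, 3 ≤ n → AmpleDimC n) : ∀ n, 1 ≤ n → AmpleDimC n := by
  intro n hn X _ _ _ _ _ _ w h hw hh hneg
  letI : ChartedSpace (Cm (n + n)) (X × X) := Prod.prodCS n n X X
  haveI : IsManifold 𝓘(ℂ, Cm (n + n)) ω (X × X) := Prod.isManifold_prod
  letI : ChartedSpace (Cm (n + (n + n))) (X × (X × X)) := Prod.prodCS n (n + n) X (X × X)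
  haveI : IsManifold 𝓘(ℂ, Cm (n + (n + n))) ω (X × (X × X)) := Prod.isManifold_prod
  have h2 := Prod.pm_hermitian hh hh
  have w2 := Prod.pm_kahler hw hw
  have n2 := Prod.pm_negHSC hh hh hneg hneg
  have h3 := Prod.pm_hermitian hh h2
  have w3 := Prod.pm_kahler hw w2
  have n3 := Prod.pm_negHSC hh h2 hneg n2
  obtain ⟨x0⟩ := (inferInstance : Nonempty X)
  exact Prod.slice_ample (x0, x0) (H (n + (n + n)) (by omega) (X × (X × X)) _ _ w3 h3 n3)

end Vale.Agent.P272.K
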