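import Vale.Agent.P272.K.Stmt
import Vale.Agent.P272.K.Inv.Compact
import Vale.Agent.P272.K.Inv.Consts

/-! Calculus on `ℂ^(n+m) = ℂ^n × ℂ^m` for the product of two manifolds. -/

open scoped Manifold ContDiff ComplexOrder Topology
open Complex Set Filter

set_option linter.all false

noncomputable section

namespace Vale.Agent.P272.K.Prod

open Vale.Agent.P272.K

variable {n m : ℕ}

/-- first component -/
def fstP (z : Cm (n + m)) : Cm n := fun i => z (Fin.castAdd m i)

/-- second component -/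
def sndP (z : Cm (n + m)) : Cm m := fun j => z (Fin.natAdd n j)

/-- gluing -/
def glue (a : Cm n) (b : Cm m) : Cm (n + m) := Fin.append a b

@[simp] lemma fstP_glue (a : Cm n) (b : Cm m) : fstP (glue a b) = a := by
  funext i; simp [fstP, glue]

@[simp] lemma sndP_glue (a : Cm n) (b : Cm m) : sndP (glue a b) = b := by
  funext i; simp [sndP, glue]

@[simp] lemma glue_fst_snd (z : Cm (n + m)) : glue (fstP z) (sndP z) = z := by
  funext i
  refine Fin.addCases (fun i => ?_) (fun i => ?_) i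
  · simp [fstP, glue]
  · simp [sndP, glue]

@[simp] lemma glue_castAdd (a : Cm n) (b : Cm m) (i : Fin n) : glue a b (Fin.castAdd m i) = a i := by
  simp [glue]

@[simp] lemma glue_natAdd (a : Cm n) (b : Cm m) (i : Fin m) : glue a b (Fin.natAdd n i) = b i := by
  simp [glue]

section
variable {𝕜 : Type*} [NontriviallyNormedField 𝕜] [NormedAlgebra 𝕜 ℂ]

lemma contDiff_fstP {r : WithTop ℕ∞} : ContDiff 𝕜 r (fstP : Cm (n + m) → Cm n) :=
  contDiff_pi.2 fun i => contDiff_apply _ _ _

lemma contDiff_sndP {r : WithTop ℕ∞} : ContDiff 𝕜 r (sndP : Cm (n + m) → Cm m) :=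
  contDiff_pi.2 fun i => contDiff_apply _ _ _

lemma contDiff_glue {E : Type*} [NormedAddCommGroup E] [NormedSpace 𝕜 E] {r : WithTop ℕ∞}
    {f : E → Cm n} {g : E → Cm m} {z : E} (hf : ContDiffAt 𝕜 r f z) (hg : ContDiffAt 𝕜 r g z) :
    ContDiffAt 𝕜 r (fun y => glue (f y) (g y)) z := by
  refine contDiffAt_pi.2 fun k => ?_
  refine Fin.addCases (fun i => ?_) (fun i => ?_) k
  · simp only [glue_castAdd]
    exact contDiffAt_pi.1 hf i
  · simp only [glue_natAdd]
    exact contDiffAt_pi.1 hg i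

end

lemma continuous_fstP : Continuous (fstP : Cm (n + m) → Cm n) :=
  continuous_pi fun i => continuous_apply _

lemma continuous_sndP : Continuous (sndP : Cm (n + m) → Cm m) :=
  continuous_pi fun i => continuous_apply _

lemma continuous_glue : Continuous fun p : Cm n × Cm m => glue p.1 p.2 := by
  refine continuous_pi fun k => ?_
  refine Fin.addCases (fun i => ?_) (fun i => ?_) k
  · simp only [glue_castAdd]
    exact (continuous_apply i).comp continuous_fst
  · simp only [glue_natAdd]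
    exact (continuous_apply i).comp continuous_snd

/-- the homeomorphism -/
def glueH : Cm n × Cm m ≃ₜ Cm (n + m) where
  toFun p := glue p.1 p.2
  invFun z := (fstP z, sndP z)
  left_inv p := by simp
  right_inv z := by simp
  continuous_toFun := continuous_glue
  continuous_invFun := continuous_fstP.prodMk continuous_sndP

lemma fstP_single_castAdd (i : Fin n) (a : ℂ) :
    fstP (Pi.single (Fin.castAdd m i) a : Cm (n + m)) = Pi.single i a := by
  funext k
  simp [fstP, Pi.single_apply, Fin.ext_iff]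

lemma fstP_single_natAdd (j : Fin m) (a : ℂ) :
    fstP (Pi.single (Fin.natAdd n j) a : Cm (n + m)) = 0 := by
  funext k
  simp only [fstP, Pi.single_apply, Fin.ext_iff, Fin.val_castAdd, Fin.val_natAdd, Pi.zero_apply]
  rw [if_neg]
  have := k.2
  omega

lemma sndP_single_natAdd (j : Fin m) (a : ℂ) :
    sndP (Pi.single (Fin.natAdd n j) a : Cm (n + m)) = Pi.single j a := by
  funext k
  simp [sndP, Pi.single_apply, Fin.ext_iff]

lemma sndP_single_castAdd (i : Fin n) (a : ℂ) :
    sndP (Pi.single (Fin.castAdd m i) a : Cm (n + m)) = 0 := by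
  funext k
  simp only [sndP, Pi.single_apply, Fin.ext_iff, Fin.val_castAdd, Fin.val_natAdd, Pi.zero_apply]
  rw [if_neg]
  have := i.2
  omega

/-- derivative of a function of the first component, unconditionally -/
lemma fderiv_fst (f : Cm n → ℂ) (z v : Cm (n + m)) :
    fderiv ℝ (fun y => f (fstP y)) z v = fderiv ℝ f (fstP z) (fstP v) := by
  by_cases hf : DifferentiableAt ℝ f (fstP z)
  · have h1 : HasFDerivAt (fstP : Cm (n + m) → Cm n)
        (ContinuousLinearMap.pi fun i => ContinuousLinearMap.proj (Fin.castAdd m i) :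
          Cm (n + m) →L[ℝ] Cm n) z :=
      (ContinuousLinearMap.pi fun i => ContinuousLinearMap.proj (Fin.castAdd m i) :
          Cm (n + m) →L[ℝ] Cm n).hasFDerivAt
    have h2 := (hf.hasFDerivAt.comp z h1).fderiv
    have h3 : fderiv ℝ (fun y => f (fstP y)) z = fderiv ℝ (f ∘ fstP) z := rfl
    rw [h3, h2]
    rfl
  · have h1 : ¬ DifferentiableAt ℝ (fun y : Cm (n + m) => f (fstP y)) z := by
      intro h
      apply hf
      have h2 : DifferentiableAt ℝ (fun a : Cm n => glue a (sndP z)) (fstP z) := by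
        have : ContDiffAt ℝ 1 (fun a : Cm n => glue a (sndP z)) (fstP z) :=
          contDiff_glue contDiffAt_id contDiffAt_const
        exact this.differentiableAt (by simp)
      have h3 : DifferentiableAt ℝ (fun y : Cm (n + m) => f (fstP y))
          ((fun a : Cm n => glue a (sndP z)) (fstP z)) := by simpa using h
      have h4 := h3.comp (fstP z) h2
      have h5 : (fun y : Cm (n + m) => f (fstP y)) ∘ (fun a : Cm n => glue a (sndP z)) = f := by
        funext a; simp
      rwa [h5] at h4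
    rw [fderiv_zero_of_not_differentiableAt h1, fderiv_zero_of_not_differentiableAt hf]
    simp

lemma fderiv_snd (f : Cm m → ℂ) (z v : Cm (n + m)) :
    fderiv ℝ (fun y => f (sndP y)) z v = fderiv ℝ f (sndP z) (sndP v) := by
  by_cases hf : DifferentiableAt ℝ f (sndP z)
  · have h1 : HasFDerivAt (sndP : Cm (n + m) → Cm m)
        (ContinuousLinearMap.pi fun i => ContinuousLinearMap.proj (Fin.natAdd n i) :
          Cm (n + m) →L[ℝ] Cm m) z :=
      (ContinuousLinearMap.pi fun i => ContinuousLinearMap.proj (Fin.natAdd n i) :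
          Cm (n + m) →L[ℝ] Cm m).hasFDerivAt
    have h2 := (hf.hasFDerivAt.comp z h1).fderiv
    have h3 : fderiv ℝ (fun y => f (sndP y)) z = fderiv ℝ (f ∘ sndP) z := rfl
    rw [h3, h2]
    rfl
  · have h1 : ¬ DifferentiableAt ℝ (fun y : Cm (n + m) => f (sndP y)) z := by
      intro h
      apply hf
      have h2 : DifferentiableAt ℝ (fun a : Cm m => glue (fstP z) a) (sndP z) := by
        have : ContDiffAt ℝ 1 (fun a : Cm m => glue (fstP z) a) (sndP z) :=
          contDiff_glue contDiffAt_const contDiffAt_id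
        exact this.differentiableAt (by simp)
      have h3 : DifferentiableAt ℝ (fun y : Cm (n + m) => f (sndP y))
          ((fun a : Cm m => glue (fstP z) a) (sndP z)) := by simpa using h
      have h4 := h3.comp (sndP z) h2
      have h5 : (fun y : Cm (n + m) => f (sndP y)) ∘ (fun a : Cm m => glue (fstP z) a) = f := by
        funext a; simp
      rwa [h5] at h4
    rw [fderiv_zero_of_not_differentiableAt h1, fderiv_zero_of_not_differentiableAt hf]
    simp

lemma dz_fst_l (i : Fin n) (f : Cm n → ℂ) (z : Cm (n + m)) :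
    dz (Fin.castAdd m i) (fun y => f (fstP y)) z = dz i f (fstP z) := by
  simp only [dz, fderiv_fst, fstP_single_castAdd]

lemma dz_fst_r (j : Fin m) (f : Cm n → ℂ) (z : Cm (n + m)) :
    dz (Fin.natAdd n j) (fun y => f (fstP y)) z = 0 := by
  simp only [dz, fderiv_fst, fstP_single_natAdd]; simp

lemma dzb_fst_l (i : Fin n) (f : Cm n → ℂ) (z : Cm (n + m)) :
    dzb (Fin.castAdd m i) (fun y => f (fstP y)) z = dzb i f (fstP z) := by
  simp only [dzb, fderiv_fst, fstP_single_castAdd]

lemma dzb_fst_r (j : Fin m) (f : Cm n → ℂ) (z : Cm (n + m)) :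
    dzb (Fin.natAdd n j) (fun y => f (fstP y)) z = 0 := by
  simp only [dzb, fderiv_fst, fstP_single_natAdd]; simp

lemma dz_snd_r (j : Fin m) (f : Cm m → ℂ) (z : Cm (n + m)) :
    dz (Fin.natAdd n j) (fun y => f (sndP y)) z = dz j f (sndP z) := by
  simp only [dz, fderiv_snd, sndP_single_natAdd]

lemma dz_snd_l (i : Fin n) (f : Cm m → ℂ) (z : Cm (n + m)) :
    dz (Fin.castAdd m i) (fun y => f (sndP y)) z = 0 := by
  simp only [dz, fderiv_snd, sndP_single_castAdd]; simp

lemma dzb_snd_r (j : Fin m) (f : Cm m → ℂ) (z : Cm (n + m)) :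
    dzb (Fin.natAdd n j) (fun y => f (sndP y)) z = dzb j f (sndP z) := by
  simp only [dzb, fderiv_snd, sndP_single_natAdd]

lemma dzb_snd_l (i : Fin n) (f : Cm m → ℂ) (z : Cm (n + m)) :
    dzb (Fin.castAdd m i) (fun y => f (sndP y)) z = 0 := by
  simp only [dzb, fderiv_snd, sndP_single_castAdd]; simp

/-- block diagonal matrix -/
def bd (A : Matrix (Fin n) (Fin n) ℂ) (D : Matrix (Fin m) (Fin m) ℂ) :
    Matrix (Fin (n + m)) (Fin (n + m)) ℂ :=
  Matrix.reindex finSumFinEquiv finSumFinEquiv (Matrix.fromBlocks A 0 0 D)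

@[simp] lemma bd_ll (A : Matrix (Fin n) (Fin n) ℂ) (D : Matrix (Fin m) (Fin m) ℂ) (i j : Fin n) :
    bd A D (Fin.castAdd m i) (Fin.castAdd m j) = A i j := by simp [bd]

@[simp] lemma bd_lr (A : Matrix (Fin n) (Fin n) ℂ) (D : Matrix (Fin m) (Fin m) ℂ) (i : Fin n)
    (j : Fin m) : bd A D (Fin.castAdd m i) (Fin.natAdd n j) = 0 := by simp [bd]

@[simp] lemma bd_rl (A : Matrix (Fin n) (Fin n) ℂ) (D : Matrix (Fin m) (Fin m) ℂ) (i : Fin n)
    (j : Fin m) : bd A D (Fin.natAdd n j) (Fin.castAdd m i) = 0 := by simp [bd]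

@[simp] lemma bd_rr (A : Matrix (Fin n) (Fin n) ℂ) (D : Matrix (Fin m) (Fin m) ℂ) (i j : Fin m) :
    bd A D (Fin.natAdd n i) (Fin.natAdd n j) = D i j := by simp [bd]

lemma ext_blocks {M N : Matrix (Fin (n + m)) (Fin (n + m)) ℂ}
    (h1 : ∀ i j : Fin n, M (Fin.castAdd m i) (Fin.castAdd m j) = N (Fin.castAdd m i) (Fin.castAdd m j))
    (h2 : ∀ (i : Fin n) (j : Fin m), M (Fin.castAdd m i) (Fin.natAdd n j) =
      N (Fin.castAdd m i) (Fin.natAdd n j))
    (h3 : ∀ (i : Fin n) (j : Fin m), M (Fin.natAdd n j) (Fin.castAdd m i) =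
      N (Fin.natAdd n j) (Fin.castAdd m i))
    (h4 : ∀ i j : Fin m, M (Fin.natAdd n i) (Fin.natAdd n j) = N (Fin.natAdd n i) (Fin.natAdd n j)) :
    M = N := by
  ext k l
  refine Fin.addCases (fun i => ?_) (fun i => ?_) k <;>
    refine Fin.addCases (fun j => ?_) (fun j => ?_) l
  · exact h1 i j
  · exact h2 i j
  · exact h3 j i
  · exact h4 i j

lemma bd_mul (A A' : Matrix (Fin n) (Fin n) ℂ) (D D' : Matrix (Fin m) (Fin m) ℂ) :
    bd A D * bd A' D' = bd (A * A') (D * D') := by
  refine ext_blocks (fun i j => ?_) (fun i j => ?_) (fun i j => ?_) (fun i j => ?_) <;>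
    simp [Matrix.mul_apply, Fin.sum_univ_add]

lemma bd_transpose (A : Matrix (Fin n) (Fin n) ℂ) (D : Matrix (Fin m) (Fin m) ℂ) :
    (bd A D).transpose = bd A.transpose D.transpose := by
  refine ext_blocks (fun i j => ?_) (fun i j => ?_) (fun i j => ?_) (fun i j => ?_) <;>
    simp [Matrix.transpose_apply]

lemma bd_map (A : Matrix (Fin n) (Fin n) ℂ) (D : Matrix (Fin m) (Fin m) ℂ) :
    (bd A D).map (starRingEnd ℂ) = bd (A.map (starRingEnd ℂ)) (D.map (starRingEnd ℂ)) := by
  refine ext_blocks (fun i j => ?_) (fun i j => ?_) (fun i j => ?_) (fun i j => ?_) <;>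
    simp [Matrix.map_apply]

lemma bd_one : bd (1 : Matrix (Fin n) (Fin n) ℂ) (1 : Matrix (Fin m) (Fin m) ℂ) = 1 := by
  simp [bd, Matrix.fromBlocks_one]

lemma bd_det (A : Matrix (Fin n) (Fin n) ℂ) (D : Matrix (Fin m) (Fin m) ℂ) :
    (bd A D).det = A.det * D.det := by
  rw [bd, Matrix.det_reindex_self, Matrix.det_fromBlocks_zero₂₁]

lemma bd_inv {A : Matrix (Fin n) (Fin n) ℂ} {D : Matrix (Fin m) (Fin m) ℂ} (hA : A.det ≠ 0)
    (hD : D.det ≠ 0) : (bd A D)⁻¹ = bd A⁻¹ D⁻¹ := by
  refine Matrix.inv_eq_left_inv ?_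
  rw [bd_mul, Matrix.nonsing_inv_mul _ (isUnit_iff_ne_zero.2 hA),
    Matrix.nonsing_inv_mul _ (isUnit_iff_ne_zero.2 hD), bd_one]

lemma bd_conjTranspose (A : Matrix (Fin n) (Fin n) ℂ) (D : Matrix (Fin m) (Fin m) ℂ) :
    (bd A D).conjTranspose = bd A.conjTranspose D.conjTranspose := by
  refine ext_blocks (fun i j => ?_) (fun i j => ?_) (fun i j => ?_) (fun i j => ?_) <;>
    simp [Matrix.conjTranspose_apply]

lemma quad_bd (A : Matrix (Fin n) (Fin n) ℂ) (D : Matrix (Fin m) (Fin m) ℂ) (ξ : Cm (n + m)) :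
    quad (bd A D) ξ = quad A (fstP ξ) + quad D (sndP ξ) := by
  simp only [quad, Fin.sum_univ_add, bd_ll, bd_lr, bd_rl, bd_rr, zero_mul, Finset.sum_const_zero,
    add_zero, zero_add]
  rfl

lemma ne_zero_cases {ξ : Cm (n + m)} (h : ξ ≠ 0) : fstP ξ ≠ 0 ∨ sndP ξ ≠ 0 := by
  by_contra hc
  push Not at hc
  apply h
  rw [← glue_fst_snd ξ, hc.1, hc.2]
  funext k
  refine Fin.addCases (fun i => ?_) (fun i => ?_) k <;> simp

lemma bd_posDef {A : Matrix (Fin n) (Fin n) ℂ} {D : Matrix (Fin m) (Fin m) ℂ} (hA : A.PosDef)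
    (hD : D.PosDef) : (bd A D).PosDef := by
  refine posDef_of_quad ?_ fun ξ hξ => ?_
  · show (bd A D).conjTranspose = bd A D
    rw [bd_conjTranspose, hA.1.eq, hD.1.eq]
  · rw [quad_bd, Complex.add_re]
    rcases ne_zero_cases hξ with h | h
    · have := quad_pos hA h
      have := quad_nonneg hD.posSemidef (sndP ξ)
      linarith
    · have := quad_pos hD h
      have := quad_nonneg hA.posSemidef (fstP ξ)
      linarith

end Vale.Agent.P272.K.Prod
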