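import Vale.Agent.P272.K.AMP.Prod.Calc

/-! The product of two complex manifolds, with charts in `ℂ^(n+m)`. -/

open scoped Manifold ContDiff ComplexOrder Topology
open Complex Set Filter

set_option linter.all false

noncomputable section

namespace Vale.Agent.P272.K.Prod

open Vale.Agent.P272.K

variable {n m : ℕ} {X Y : Type} [TopologicalSpace X] [TopologicalSpace Y]

/-- the product chart -/
def pc (e : Chart n X) (e' : Chart m Y) : Chart (n + m) (X × Y) :=
  (e.prod e').transHomeomorph glueH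

@[simp] lemma pc_apply (e : Chart n X) (e' : Chart m Y) (p : X × Y) :
    pc e e' p = glue (e p.1) (e' p.2) := rfl

@[simp] lemma pc_symm_apply (e : Chart n X) (e' : Chart m Y) (z : Cm (n + m)) :
    (pc e e').symm z = (e.symm (fstP z), e'.symm (sndP z)) := rfl

@[simp] lemma pc_source (e : Chart n X) (e' : Chart m Y) :
    (pc e e').source = e.source ×ˢ e'.source := rfl

lemma mem_pc_target (e : Chart n X) (e' : Chart m Y) (z : Cm (n + m)) :
    z ∈ (pc e e').target ↔ fstP z ∈ e.target ∧ sndP z ∈ e'.target := by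
  rfl

variable [ChartedSpace (Cm n) X] [ChartedSpace (Cm m) Y]

/-- the charted space structure on the product -/
@[reducible] def prodCS (n m : ℕ) (X Y : Type) [TopologicalSpace X] [TopologicalSpace Y]
    [ChartedSpace (Cm n) X] [ChartedSpace (Cm m) Y] : ChartedSpace (Cm (n + m)) (X × Y) where
  atlas := {E | ∃ e ∈ atlas (Cm n) X, ∃ e' ∈ atlas (Cm m) Y, E = pc e e'}
  chartAt p := pc (chartAt (Cm n) p.1) (chartAt (Cm m) p.2)
  mem_chart_source p := ⟨mem_chart_source _ _, mem_chart_source _ _⟩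
  chart_mem_atlas p := ⟨_, chart_mem_atlas _ _, _, chart_mem_atlas _ _, rfl⟩

attribute [local instance] prodCS

lemma at_pc {e : Chart n X} {e' : Chart m Y} {x : X} {y : Y} (h : At e x) (h' : At e' y) :
    At (pc e e') (x, y) := ⟨⟨e, h.1, e', h'.1, rfl⟩, h.2, h'.2⟩

lemma at_dec {E : Chart (n + m) (X × Y)} {p : X × Y} (h : At E p) :
    ∃ (e : Chart n X) (e' : Chart m Y), E = pc e e' ∧ At e p.1 ∧ At e' p.2 := by
  obtain ⟨e, he, e', he', rfl⟩ := h.1
  exact ⟨e, e', rfl, ⟨he, h.2.1⟩, ⟨he', h.2.2⟩⟩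

lemma isManifold_prod [IsManifold 𝓘(ℂ, Cm n) ω X] [IsManifold 𝓘(ℂ, Cm m) ω Y] :
    IsManifold 𝓘(ℂ, Cm (n + m)) ω (X × Y) := by
  refine isManifold_of_contDiffOn _ _ _ ?_
  rintro _ _ ⟨e, he, e', he', rfl⟩ ⟨f, hf, f', hf', rfl⟩
  intro z hz
  refine ContDiffAt.contDiffWithinAt ?_
  simp only [mfld_simps, OpenPartialHomeomorph.trans_toPartialEquiv] at hz
  have h1 : z ∈ (pc e e').target := hz.1
  have h2 : (pc e e').symm z ∈ (pc f f').source := hz.2
  rw [mem_pc_target] at h1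
  have hx : At e (e.symm (fstP z)) := At.of_target he h1.1
  have hy : At e' (e'.symm (sndP z)) := At.of_target he' h1.2
  have hx' : At f (e.symm (fstP z)) := ⟨hf, h2.1⟩
  have hy' : At f' (e'.symm (sndP z)) := ⟨hf', h2.2⟩
  have t1 := transition hx hx'
  have t2 := transition hy hy'
  rw [e.right_inv h1.1] at t1
  rw [e'.right_inv h1.2] at t2
  have t3 : ContDiffAt ℂ ω (fun y : Cm (n + m) => f (e.symm (fstP y))) z :=
    ContDiffAt.comp z (g := fun w => f (e.symm w)) t1 contDiff_fstP.contDiffAt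
  have t4 : ContDiffAt ℂ ω (fun y : Cm (n + m) => f' (e'.symm (sndP y))) z :=
    ContDiffAt.comp z (g := fun w => f' (e'.symm w)) t2 contDiff_sndP.contDiffAt
  exact contDiff_glue t3 t4

lemma jacM_pc (e f : Chart n X) (e' f' : Chart m Y) (p : X × Y) :
    jacM (pc e e') (pc f f') p = bd (jacM e f p.1) (jacM e' f' p.2) := by
  refine ext_blocks (fun i j => ?_) (fun i j => ?_) (fun i j => ?_) (fun i j => ?_)
  · simp only [jacM, Matrix.of_apply, bd_ll, pc_symm_apply, pc_apply, glue_castAdd]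
    rw [dz_fst_l j (fun w => f (e.symm w) i)]
    simp
  · simp only [jacM, Matrix.of_apply, bd_lr, pc_symm_apply, pc_apply, glue_castAdd]
    rw [dz_fst_r j (fun w => f (e.symm w) i)]
  · simp only [jacM, Matrix.of_apply, bd_rl, pc_symm_apply, pc_apply, glue_natAdd]
    rw [dz_snd_l i (fun w => f' (e'.symm w) j)]
  · simp only [jacM, Matrix.of_apply, bd_rr, pc_symm_apply, pc_apply, glue_natAdd]
    rw [dz_snd_r j (fun w => f' (e'.symm w) i)]
    simp

open Classical in
/-- the product of two metrics -/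
def pm (h : Chart n X → Cm n → Matrix (Fin n) (Fin n) ℂ)
    (h' : Chart m Y → Cm m → Matrix (Fin m) (Fin m) ℂ) :
    Chart (n + m) (X × Y) → Cm (n + m) → Matrix (Fin (n + m)) (Fin (n + m)) ℂ :=
  fun E z => if hE : ∃ p : Chart n X × Chart m Y, E = pc p.1 p.2 ∧ p.1 ∈ atlas (Cm n) X ∧
      p.2 ∈ atlas (Cm m) Y then
    bd (h hE.choose.1 (fstP z)) (h' hE.choose.2 (sndP z)) else 0

lemma pm_dec (h : Chart n X → Cm n → Matrix (Fin n) (Fin n) ℂ)
    (h' : Chart m Y → Cm m → Matrix (Fin m) (Fin m) ℂ) {E : Chart (n + m) (X × Y)} {p : X × Y}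
    (hE : At E p) : ∃ (e : Chart n X) (e' : Chart m Y), E = pc e e' ∧ At e p.1 ∧ At e' p.2 ∧
      pm h h' E = fun z => bd (h e (fstP z)) (h' e' (sndP z)) := by
  have hex : ∃ q : Chart n X × Chart m Y, E = pc q.1 q.2 ∧ q.1 ∈ atlas (Cm n) X ∧
      q.2 ∈ atlas (Cm m) Y := by
    obtain ⟨e, he, e', he', hEq⟩ := hE.1
    exact ⟨(e, e'), hEq, he, he'⟩
  have h1 := hex.choose_spec
  have h2 : p ∈ E.source := hE.2
  rw [h1.1] at h2
  refine ⟨hex.choose.1, hex.choose.2, h1.1, ⟨h1.2.1, h2.1⟩, ⟨h1.2.2, h2.2⟩, ?_⟩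
  funext z
  rw [pm, dif_pos hex]

end Vale.Agent.P272.K.Prod
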