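import Vale.Agent.P272.K.AMP.Prod.Metric
import Vale.Agent.P272.K.Inv.Hess

/-! From dimension `≥ 3` to all dimensions: `X × (X × X)`. -/

open scoped Manifold ContDiff ComplexOrder Topology
open Complex Set Filter

set_option linter.all false

noncomputable section

namespace Vale.Agent.P272.K.Prod

open Vale.Agent.P272.K

variable {n m : ℕ} {X Y : Type} [TopologicalSpace X] [TopologicalSpace Y]
  [ChartedSpace (Cm n) X] [ChartedSpace (Cm m) Y]

attribute [local instance] prodCS

lemma pm_negHSC {h : Chart n X → Cm n → Matrix (Fin n) (Fin n) ℂ}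
    {h' : Chart m Y → Cm m → Matrix (Fin m) (Fin m) ℂ} (hh : IsHermitian h)
    (hh' : IsHermitian h') (hn : NegHSC h) (hn' : NegHSC h') : NegHSC (pm h h') := by
  intro E p hE ξ hξ
  obtain ⟨e, e', rfl, h1, h2, h3⟩ := pm_dec h h' hE
  show (quart (curv (pm h h' (pc e e')) ((pc e e') p)) ξ).re < 0
  rw [h3]
  have h4 := curv_bm (A := h e) (D := h' e') ((pc e e') p)
    (by simpa using (hh.posDef e p.1 h1).det_pos.ne')
    (by simpa using (hh'.posDef e' p.2 h2).det_pos.ne') ξ
  have h5 : bm (h e) (h' e') = fun z => bd (h e (fstP z)) (h' e' (sndP z)) := rfl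
  rw [h5] at h4
  rw [h4]
  simp only [pc_apply, fstP_glue, sndP_glue, Complex.add_re]
  have hz : ∀ {k : ℕ} (R : Fin k → Fin k → Fin k → Fin k → ℂ), quart R 0 = 0 := by
    intro k R; simp [quart]
  have k1 : fstP ξ ≠ 0 → (quart (curv (h e) (e p.1)) (fstP ξ)).re < 0 := hn e p.1 h1 _
  have k2 : sndP ξ ≠ 0 → (quart (curv (h' e') (e' p.2)) (sndP ξ)).re < 0 := hn' e' p.2 h2 _
  by_cases c1 : fstP ξ = 0
  · by_cases c2 : sndP ξ = 0
    · rcases ne_zero_cases hξ with h | h
      · exact absurd c1 h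
      · exact absurd c2 h
    · rw [c1, hz]; simpa using k2 c2
  · by_cases c2 : sndP ξ = 0
    · rw [c2, hz]; simpa using k1 c1
    · have := k1 c1; have := k2 c2; linarith

/-! ### restriction to a slice -/

section slice

variable (n) in
lemma fderiv_slice {f : Cm (n + m) → ℂ} (c : Cm m) {z : Cm n}
    (hf : DifferentiableAt ℝ f (glue z c)) (v : Cm n) :
    fderiv ℝ (fun y => f (glue y c)) z v = fderiv ℝ f (glue z c) (glue v 0) := by
  have h1 : HasFDerivAt (fun y : Cm n => (glue y c : Cm (n + m)))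
      (ContinuousLinearMap.pi (fun k => Fin.addCases (fun i => ContinuousLinearMap.proj i)
        (fun _ => 0) k) : Cm n →L[ℝ] Cm (n + m)) z := by
    rw [hasFDerivAt_pi']
    intro k
    refine Fin.addCases (fun i => ?_) (fun i => ?_) k
    · simp only [glue_castAdd]
      have : (ContinuousLinearMap.proj (R := ℝ) (φ := fun _ : Fin (n + m) => ℂ)
          (Fin.castAdd m i)).comp (ContinuousLinearMap.pi (fun k => Fin.addCases
          (fun i => ContinuousLinearMap.proj i) (fun _ => 0) k) : Cm n →L[ℝ] Cm (n + m)) =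
          ContinuousLinearMap.proj (R := ℝ) (φ := fun _ : Fin n => ℂ) i := by
        ext v; simp
      rw [this]
      exact (ContinuousLinearMap.proj (R := ℝ) (φ := fun _ : Fin n => ℂ) i).hasFDerivAt
    · simp only [glue_natAdd]
      have : (ContinuousLinearMap.proj (R := ℝ) (φ := fun _ : Fin (n + m) => ℂ)
          (Fin.natAdd n i)).comp (ContinuousLinearMap.pi (fun k => Fin.addCases
          (fun i => ContinuousLinearMap.proj i) (fun _ => 0) k) : Cm n →L[ℝ] Cm (n + m)) = 0 := by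
        ext v; simp
      rw [this]
      exact hasFDerivAt_const _ _
  have h2 := (hf.hasFDerivAt.comp z h1).fderiv
  have h3 : fderiv ℝ (fun y => f (glue y c)) z = fderiv ℝ (f ∘ fun y => glue y c) z := rfl
  rw [h3, h2]
  show fderiv ℝ f (glue z c) _ = _
  congr 1
  funext k
  refine Fin.addCases (fun i => ?_) (fun i => ?_) k <;> simp

lemma glue_single (i : Fin n) (a : ℂ) :
    glue (Pi.single i a : Cm n) (0 : Cm m) = Pi.single (Fin.castAdd m i) a := by
  funext k
  refine Fin.addCases (fun j => ?_) (fun j => ?_) k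
  · simp [Pi.single_apply, Fin.ext_iff]
  · simp only [glue_natAdd, Pi.zero_apply, Pi.single_apply, Fin.ext_iff, Fin.val_natAdd,
      Fin.val_castAdd]
    rw [if_neg]
    have := i.2
    omega

lemma dz_slice {f : Cm (n + m) → ℂ} (c : Cm m) {z : Cm n}
    (hf : DifferentiableAt ℝ f (glue z c)) (i : Fin n) :
    dz i (fun y => f (glue y c)) z = dz (Fin.castAdd m i) f (glue z c) := by
  simp only [dz, fderiv_slice n c hf, glue_single]

lemma dzb_slice {f : Cm (n + m) → ℂ} (c : Cm m) {z : Cm n}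
    (hf : DifferentiableAt ℝ f (glue z c)) (i : Fin n) :
    dzb i (fun y => f (glue y c)) z = dzb (Fin.castAdd m i) f (glue z c) := by
  simp only [dzb, fderiv_slice n c hf, glue_single]

lemma continuous_slice (c : Cm m) : Continuous fun y : Cm n => (glue y c : Cm (n + m)) :=
  continuous_glue.comp (continuous_id.prodMk continuous_const)

lemma cHess_slice {f : Cm (n + m) → ℝ} (c : Cm m) {z : Cm n}
    (hf : ContDiffAt ℝ 2 f (glue z c)) :
    cHess (fun y => f (glue y c)) z =
      (cHess f (glue z c)).submatrix (Fin.castAdd m) (Fin.castAdd m) := by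
  ext j k
  rw [cHess_apply, Matrix.submatrix_apply, cHess_apply]
  have hF : ContDiffAt ℝ 2 (fun y => (f y : ℂ)) (glue z c) := ofReal_contDiffAt hf
  have h1 : (dzb k fun y => ((f (glue y c) : ℝ) : ℂ)) =ᶠ[𝓝 z]
      fun y => dzb (Fin.castAdd m k) (fun y => (f y : ℂ)) (glue y c) := by
    have h2 : ∀ᶠ w in 𝓝 (glue z c), ContDiffAt ℝ 1 (fun y => (f y : ℂ)) w :=
      (hF.of_le (by norm_num)).eventually (by simp)
    have h3 : Tendsto (fun y : Cm n => (glue y c : Cm (n + m))) (𝓝 z) (𝓝 (glue z c)) :=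
      (continuous_slice c).continuousAt
    filter_upwards [h3.eventually h2] with y hy
    exact dzb_slice (f := fun y => (f y : ℂ)) c (hy.differentiableAt (by simp)) k
  rw [dz_congr h1]
  exact dz_slice (f := dzb (Fin.castAdd m k) fun y => (f y : ℂ)) c (differentiableAt_dzb hF) j

/-- restricting a positive canonical metric on `X × Y` to a slice -/
theorem slice_ample [IsManifold 𝓘(ℂ, Cm n) ω X] [IsManifold 𝓘(ℂ, Cm m) ω Y] (y₀ : Y)
    (H : ∃ φ : Chart (n + m) (X × Y) → Cm (n + m) → ℝ, IsCanonicalMetric φ ∧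
      ∀ e x, At e x → (cHess (φ e) (e x)).PosDef) :
    ∃ φ : Chart n X → Cm n → ℝ, IsCanonicalMetric φ ∧
      ∀ e x, At e x → (cHess (φ e) (e x)).PosDef := by
  obtain ⟨Φ, hΦ, hpos⟩ := H
  have hy : At (chartAt (Cm m) y₀) y₀ := ⟨chart_mem_atlas _ _, mem_chart_source _ _⟩
  set c : Cm m := chartAt (Cm m) y₀ y₀ with hc
  refine ⟨fun e z => Φ (pc e (chartAt (Cm m) y₀)) (glue z c), ⟨fun e x hx => ?_,
    fun e e' x hx hx' => ?_⟩, fun e x hx => ?_⟩
  · have h1 := hΦ.smooth _ _ (at_pc hx hy)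
    have h2 : (pc e (chartAt (Cm m) y₀)) (x, y₀) = glue (e x) c := rfl
    rw [h2] at h1
    exact ContDiffAt.comp (e x) (g := Φ (pc e (chartAt (Cm m) y₀))) h1
      (contDiff_glue contDiffAt_id contDiffAt_const)
  · have h1 := hΦ.change _ _ _ (at_pc hx hy) (at_pc hx' hy)
    rw [jacM_pc, bd_det] at h1
    simp only [jacM_self hy, Matrix.det_one, mul_one] at h1
    exact h1
  · have h1 := hpos _ _ (at_pc hx hy)
    have h0 := hΦ.smooth _ _ (at_pc hx hy)
    have h2 : (pc e (chartAt (Cm m) y₀)) (x, y₀) = glue (e x) c := rfl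
    rw [h2] at h1 h0
    rw [cHess_slice (f := Φ (pc e (chartAt (Cm m) y₀))) c
      (h0.of_le (by exact WithTop.coe_le_coe.2 le_top))]
    exact h1.submatrix (Fin.castAdd_injective n m)

end slice

end Vale.Agent.P272.K.Prod

namespace Vale.Agent.P272.K

/-- full ampleness in dimension `n` -/
def AmpleDim (n : ℕ) : Prop :=
  ∀ (X : Type) [TopologicalSpace X] [T2Space X] [CompactSpace X] [Nonempty X]
    [ChartedSpace (Cm n) X] [IsManifold 𝓘(ℂ, Cm n) ω X]
    (w h : Chart n X → Cm n → Matrix (Fin n) (Fin n) ℂ) (_ : IsKahler w) (_ : IsHermitian h)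
    (_ : NegHSC h), ∃ φ : Chart n X → Cm n → ℝ, IsCanonicalMetric φ ∧
      ∀ e x, At e x → (cHess (φ e) (e x)).PosDef

/-- it suffices to prove full ampleness in dimensions `≥ 3` -/
theorem ample_of_three (H : ∀ n, 3 ≤ n → AmpleDim n) : ∀ n, 1 ≤ n → AmpleDim n := by
  intro n hn X _ _ _ _ _ _ w h hw hh hneg
  letI : ChartedSpace (Cm (n + n)) (X × X) := Prod.prodCS n n X X
  haveI : IsManifold 𝓘(ℂ, Cm (n + n)) ω (X × X) := Prod.isManifold_prod
  letI : ChartedSpace (Cm (n + (n + n))) (X × (X × X)) := Prod.prodCS n (n + n) X (X × X)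
  haveI : IsManifold 𝓘(ℂ, Cm (n + (n + n))) ω (X × (X × X)) := Prod.isManifold_prod
  have h2 := Prod.pm_hermitian hh hh
  have w2 := Prod.pm_kahler hw hw
  have n2 := Prod.pm_negHSC hh hh hneg hneg
  have h3 := Prod.pm_hermitian hh h2
  have w3 := Prod.pm_kahler hw w2
  have n3 := Prod.pm_negHSC hh h2 hneg n2
  obtain ⟨x0⟩ := (inferInstance : Nonempty X)
  exact Prod.slice_ample (x0, x0) (H (n + (n + n)) (by omega) (X × (X × X)) _ _ w3 h3 n3)

end Vale.Agent.P272.K
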