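import Vale.Agent.P272.K.AMP.Prod.Chart

/-! The product metric: Hermitian, Kähler, negative holomorphic sectional curvature. -/

open scoped Manifold ContDiff ComplexOrder Topology
open Complex Set Filter

set_option linter.all false

noncomputable section

namespace Vale.Agent.P272.K.Prod

open Vale.Agent.P272.K

variable {n m : ℕ} {X Y : Type} [TopologicalSpace X] [TopologicalSpace Y]
  [ChartedSpace (Cm n) X] [ChartedSpace (Cm m) Y]

attribute [local instance] prodCS

variable {h : Chart n X → Cm n → Matrix (Fin n) (Fin n) ℂ}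
  {h' : Chart m Y → Cm m → Matrix (Fin m) (Fin m) ℂ}

lemma pm_hermitian (hh : IsHermitian h) (hh' : IsHermitian h') : IsHermitian (pm h h') := by
  refine ⟨fun E p hE => ?_, fun E p hE => ?_, fun E E' p hE hE' => ?_⟩
  · obtain ⟨e, e', rfl, h1, h2, h3⟩ := pm_dec h h' hE
    have s1 : ∀ i j, ContDiffAt ℝ ∞ (fun z : Cm (n + m) => h e (fstP z) i j)
        ((pc e e') p) := by
      intro i j
      have h4 := hh.smooth e p.1 h1 i j
      have h5 : fstP ((pc e e') p) = e p.1 := by simp
      rw [← h5] at h4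
      exact ContDiffAt.comp ((pc e e') p) (g := fun w => h e w i j) h4 contDiff_fstP.contDiffAt
    have s2 : ∀ i j, ContDiffAt ℝ ∞ (fun z : Cm (n + m) => h' e' (sndP z) i j)
        ((pc e e') p) := by
      intro i j
      have h4 := hh'.smooth e' p.2 h2 i j
      have h5 : sndP ((pc e e') p) = e' p.2 := by simp
      rw [← h5] at h4
      exact ContDiffAt.comp ((pc e e') p) (g := fun w => h' e' w i j) h4 contDiff_sndP.contDiffAt
    intro k l
    rw [h3]
    refine Fin.addCases (fun i => ?_) (fun i => ?_) k <;>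
      refine Fin.addCases (fun j => ?_) (fun j => ?_) l
    · simpa using s1 i j
    · simpa using contDiffAt_const
    · simpa using contDiffAt_const
    · simpa using s2 i j
  · obtain ⟨e, e', rfl, h1, h2, h3⟩ := pm_dec h h' hE
    rw [h3]
    refine bd_posDef ?_ ?_
    · simpa using hh.posDef e p.1 h1
    · simpa using hh'.posDef e' p.2 h2
  · obtain ⟨e, e', rfl, h1, h2, h3⟩ := pm_dec h h' hE
    obtain ⟨f, f', rfl, k1, k2, k3⟩ := pm_dec h h' hE'
    rw [h3, k3, jacM_pc]
    simp only [pc_apply, fstP_glue, sndP_glue]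
    rw [hh.change e f p.1 h1 k1, hh'.change e' f' p.2 h2 k2, bd_transpose, bd_map, bd_mul, bd_mul]

lemma pm_kahler (hh : IsKahler h) (hh' : IsKahler h') : IsKahler (pm h h') := by
  refine ⟨pm_hermitian hh.toIsHermitian hh'.toIsHermitian, fun E p hE => ?_⟩
  obtain ⟨e, e', rfl, h1, h2, h3⟩ := pm_dec h h' hE
  intro i j k
  rw [h3]
  refine Fin.addCases (fun i => ?_) (fun i => ?_) i <;>
    refine Fin.addCases (fun j => ?_) (fun j => ?_) j <;>
    refine Fin.addCases (fun k => ?_) (fun k => ?_) k <;>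
    simp only [bd_ll, bd_lr, bd_rl, bd_rr]
  · rw [dz_fst_l k (fun w => h e w i j), dz_fst_l i (fun w => h e w k j)]
    simpa using hh.closed e p.1 h1 i j k
  · rw [dz_fst_r k (fun w => h e w i j), dz_const]
  · simp only [dz_const]
  · rw [dz_snd_l i (fun w => h' e' w k j), dz_const]
  · rw [dz_fst_r i (fun w => h e w k j), dz_const]
  · simp only [dz_const]
  · rw [dz_snd_l k (fun w => h' e' w i j), dz_const]
  · rw [dz_snd_r k (fun w => h' e' w i j), dz_snd_r i (fun w => h' e' w k j)]
    simpa using hh'.closed e' p.2 h2 i j k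

/-! ### curvature -/

section curvature
variable {A : Cm n → Matrix (Fin n) (Fin n) ℂ} {D : Cm m → Matrix (Fin m) (Fin m) ℂ}

/-- the block metric -/
def bm (A : Cm n → Matrix (Fin n) (Fin n) ℂ) (D : Cm m → Matrix (Fin m) (Fin m) ℂ) :
    Cm (n + m) → Matrix (Fin (n + m)) (Fin (n + m)) ℂ := fun z => bd (A (fstP z)) (D (sndP z))

lemma bm_ll (k l : Fin n) : (fun z => bm A D z (Fin.castAdd m k) (Fin.castAdd m l)) =
    fun z => A (fstP z) k l := by funext z; simp [bm]

lemma bm_lr (k : Fin n) (l : Fin m) : (fun z => bm A D z (Fin.castAdd m k) (Fin.natAdd n l)) =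
    fun z => 0 := by funext z; simp [bm]

lemma bm_rl (k : Fin n) (l : Fin m) : (fun z => bm A D z (Fin.natAdd n l) (Fin.castAdd m k)) =
    fun z => 0 := by funext z; simp [bm]

lemma bm_rr (k l : Fin m) : (fun z => bm A D z (Fin.natAdd n k) (Fin.natAdd n l)) =
    fun z => D (sndP z) k l := by funext z; simp [bm]

lemma fun_fst_l (f : Cm n → ℂ) (j : Fin n) :
    dzb (Fin.castAdd m j) (fun y : Cm (n + m) => f (fstP y)) = fun y => dzb j f (fstP y) := by
  funext y; exact dzb_fst_l j f y

lemma fun_fst_r (f : Cm n → ℂ) (j : Fin m) :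
    dzb (Fin.natAdd n j) (fun y : Cm (n + m) => f (fstP y)) = fun y => 0 := by
  funext y; exact dzb_fst_r j f y

lemma fun_snd_r (f : Cm m → ℂ) (j : Fin m) :
    dzb (Fin.natAdd n j) (fun y : Cm (n + m) => f (sndP y)) = fun y => dzb j f (sndP y) := by
  funext y; exact dzb_snd_r j f y

lemma fun_snd_l (f : Cm m → ℂ) (j : Fin n) :
    dzb (Fin.castAdd m j) (fun y : Cm (n + m) => f (sndP y)) = fun y => 0 := by
  funext y; exact dzb_snd_l j f y

lemma fun_const (k : Fin (n + m)) : dzb k (fun _ : Cm (n + m) => (0 : ℂ)) = fun y => 0 := by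
  funext y; exact dzb_const 0

lemma curv_bm (z : Cm (n + m)) (hA : (A (fstP z)).det ≠ 0) (hD : (D (sndP z)).det ≠ 0)
    (ξ : Cm (n + m)) :
    quart (curv (bm A D) z) ξ = quart (curv A (fstP z)) (fstP ξ) +
      quart (curv D (sndP z)) (sndP ξ) := by
  have hinv : (bm A D z)⁻¹ = bd (A (fstP z))⁻¹ (D (sndP z))⁻¹ := bd_inv hA hD
  have c0 : ∀ (i j k l : Fin (n + m)), curv (bm A D) z i j k l =
      -dz i (dzb j fun y => bm A D y k l) z +
    ∑ q, ∑ p, dz i (fun y => bm A D y k q) z * (bd (A (fstP z))⁻¹ (D (sndP z))⁻¹) q p *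
      dzb j (fun y => bm A D y p l) z := by
    intro i j k l; rw [curv, hinv]
  have c1 : ∀ i j k l : Fin n, curv (bm A D) z (Fin.castAdd m i) (Fin.castAdd m j)
      (Fin.castAdd m k) (Fin.castAdd m l) = curv A (fstP z) i j k l := by
    intro i j k l
    rw [c0]
    simp only [Fin.sum_univ_add, bm_ll, bm_lr, bm_rl, bm_rr, bd_ll, bd_lr, bd_rl, bd_rr, mul_zero,
      zero_mul, Finset.sum_const_zero, add_zero, zero_add, dz_const, dzb_const]
    rw [fun_fst_l (fun w => A w k l) j, dz_fst_l i (dzb j fun w => A w k l), curv]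
    congr 1
    refine Finset.sum_congr rfl fun q _ => Finset.sum_congr rfl fun p _ => ?_
    rw [dz_fst_l i (fun w => A w k q), dzb_fst_l j (fun w => A w p l)]
  have c2 : ∀ i j k l : Fin m, curv (bm A D) z (Fin.natAdd n i) (Fin.natAdd n j)
      (Fin.natAdd n k) (Fin.natAdd n l) = curv D (sndP z) i j k l := by
    intro i j k l
    rw [c0]
    simp only [Fin.sum_univ_add, bm_ll, bm_lr, bm_rl, bm_rr, bd_ll, bd_lr, bd_rl, bd_rr, mul_zero,
      zero_mul, Finset.sum_const_zero, add_zero, zero_add, dz_const, dzb_const]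
    rw [fun_snd_r (fun w => D w k l) j, dz_snd_r i (dzb j fun w => D w k l), curv]
    congr 1
    refine Finset.sum_congr rfl fun q _ => Finset.sum_congr rfl fun p _ => ?_
    rw [dz_snd_r i (fun w => D w k q), dzb_snd_r j (fun w => D w p l)]
  have aL : ∀ (i k q : Fin n) (z : Cm (n + m)), dz (Fin.castAdd m i) (fun y => A (fstP y) k q) z =
      dz i (fun w => A w k q) (fstP z) := fun i k q z => dz_fst_l i (fun w => A w k q) z
  have aR : ∀ (i : Fin m) (k q : Fin n) (z : Cm (n + m)),
      dz (Fin.natAdd n i) (fun y => A (fstP y) k q) z = 0 :=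
    fun i k q z => dz_fst_r i (fun w => A w k q) z
  have aLb : ∀ (i k q : Fin n) (z : Cm (n + m)), dzb (Fin.castAdd m i) (fun y => A (fstP y) k q) z =
      dzb i (fun w => A w k q) (fstP z) := fun i k q z => dzb_fst_l i (fun w => A w k q) z
  have aRb : ∀ (i : Fin m) (k q : Fin n) (z : Cm (n + m)),
      dzb (Fin.natAdd n i) (fun y => A (fstP y) k q) z = 0 :=
    fun i k q z => dzb_fst_r i (fun w => A w k q) z
  have dR : ∀ (i k q : Fin m) (z : Cm (n + m)), dz (Fin.natAdd n i) (fun y => D (sndP y) k q) z =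
      dz i (fun w => D w k q) (sndP z) := fun i k q z => dz_snd_r i (fun w => D w k q) z
  have dL : ∀ (i : Fin n) (k q : Fin m) (z : Cm (n + m)),
      dz (Fin.castAdd m i) (fun y => D (sndP y) k q) z = 0 :=
    fun i k q z => dz_snd_l i (fun w => D w k q) z
  have dRb : ∀ (i k q : Fin m) (z : Cm (n + m)), dzb (Fin.natAdd n i) (fun y => D (sndP y) k q) z =
      dzb i (fun w => D w k q) (sndP z) := fun i k q z => dzb_snd_r i (fun w => D w k q) z
  have dLb : ∀ (i : Fin n) (k q : Fin m) (z : Cm (n + m)),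
      dzb (Fin.castAdd m i) (fun y => D (sndP y) k q) z = 0 :=
    fun i k q z => dzb_snd_l i (fun w => D w k q) z
  have aLf : ∀ (i k q : Fin n), (dzb (Fin.castAdd m i) fun y => A (fstP y) k q) =
      fun z => dzb i (fun w => A w k q) (fstP z) := fun i k q => funext fun z => aLb i k q z
  have aRf : ∀ (i : Fin m) (k q : Fin n), (dzb (Fin.natAdd n i) fun y => A (fstP y) k q) =
      fun z => 0 := fun i k q => funext fun z => aRb i k q z
  have dRf : ∀ (i k q : Fin m), (dzb (Fin.natAdd n i) fun y => D (sndP y) k q) =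
      fun z => dzb i (fun w => D w k q) (sndP z) := fun i k q => funext fun z => dRb i k q z
  have dLf : ∀ (i : Fin n) (k q : Fin m), (dzb (Fin.castAdd m i) fun y => D (sndP y) k q) =
      fun z => 0 := fun i k q => funext fun z => dLb i k q z
  have aLR : ∀ (i : Fin m) (j k q : Fin n) (z : Cm (n + m)),
      dz (Fin.natAdd n i) (fun z => dzb j (fun w => A w k q) (fstP z)) z = 0 :=
    fun i j k q z => dz_fst_r i (dzb j fun w => A w k q) z
  have dRL : ∀ (i : Fin n) (j k q : Fin m) (z : Cm (n + m)),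
      dz (Fin.castAdd m i) (fun z => dzb j (fun w => D w k q) (sndP z)) z = 0 :=
    fun i j k q z => dz_snd_l i (dzb j fun w => D w k q) z
  simp only [quart, Fin.sum_univ_add]
  simp only [c1, c2]
  simp only [c0, Fin.sum_univ_add, bm_ll, bm_lr, bm_rl, bm_rr, bd_ll, bd_lr, bd_rl, bd_rr,
    mul_zero, zero_mul, Finset.sum_const_zero, add_zero, zero_add, dz_const, dzb_const, aR, aRb,
    dL, dLb, aLf, aRf, dRf, dLf, aLR, dRL, neg_zero, fun_const]
  rfl

end curvature

end Vale.Agent.P272.K.Prod
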